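import Vale.Agent.Results.P042.SqrtLog

/-!
# P042: quasi-polynomial bounds, direct form (no auxiliary definitions)

Second hand-in: every intersective polynomial, stated for sets, with the case of `k`-th powers.
-/

open Polynomial

namespace Vale.Agent.Results.P042.QuasiPoly

theorem direct (k : ℕ) (hk : 2 ≤ k) :
    ∃ c : ℝ, 0 < c ∧ ∀ h : ℤ[X], h.natDegree = k → 0 < h.leadingCoeff →
      (∀ q : ℕ, 1 ≤ q → ∃ t : ℤ, (q : ℤ) ∣ h.eval t) →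
      ∃ C : ℝ, ∀ N : ℕ, 1 ≤ N → ∀ A : Finset ℕ, A ⊆ Finset.Icc 1 N →
        (∀ a ∈ A, ∀ b ∈ A, ∀ n : ℕ, 1 ≤ n → (a : ℤ) - (b : ℤ) = h.eval (n : ℤ) → a = b) →
        (A.card : ℝ) ≤ C * N * Real.exp (-c * Real.sqrt (Real.log N)) := by
  obtain ⟨c, hc, hmain⟩ := Vale.Agent.Results.P042.SqrtLog.result k hk
  refine ⟨c, hc, fun h hdeg hlc hint => ?_⟩
  obtain ⟨C, hC⟩ := hmain h hdeg hlc hint
  refine ⟨C, fun N hN A hA hav => ?_⟩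
  have h1 : A.card ≤ Vale.Agent.P042.rh h N := by
    classical
    unfold Vale.Agent.P042.rh
    refine Finset.le_sup (f := Finset.card) ?_
    rw [Finset.mem_filter, Finset.mem_powerset]
    refine ⟨hA, fun a ha b hb n hn e => ?_⟩
    rw [hav a ha b hb n hn e, sub_self]
  have h2 : (A.card : ℝ) ≤ (Vale.Agent.P042.rh h N : ℝ) := by exact_mod_cast h1
  exact h2.trans (hC N hN)

theorem powers (k : ℕ) (hk : 2 ≤ k) :
    ∃ c : ℝ, 0 < c ∧ ∃ C : ℝ, ∀ N : ℕ, 1 ≤ N → ∀ A : Finset ℕ, A ⊆ Finset.Icc 1 N →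
      (∀ a ∈ A, ∀ b ∈ A, ∀ n : ℕ, 1 ≤ n → a ≠ b + n ^ k) →
      (A.card : ℝ) ≤ C * N * Real.exp (-c * Real.sqrt (Real.log N)) := by
  obtain ⟨c, hc, hmain⟩ := direct k hk
  obtain ⟨C, hC⟩ := hmain (X ^ k) (natDegree_X_pow k) (by rw [leadingCoeff_X_pow]; norm_num)
    (fun q _ => ⟨0, by rw [eval_pow, eval_X, zero_pow (by omega)]; exact dvd_zero _⟩)
  refine ⟨c, hc, C, fun N hN A hA hav => hC N hN A hA fun a ha b hb n hn e => ?_⟩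
  exfalso
  refine hav a ha b hb n hn ?_
  rw [eval_pow, eval_X] at e
  have e2 : (a : ℤ) = ((b + n ^ k : ℕ) : ℤ) := by
    push_cast
    linarith
  exact_mod_cast e2

/-- (1) every intersective polynomial of degree `k ≥ 2`; (2) `k`-th powers. -/
theorem result :
    (∀ k : ℕ, 2 ≤ k → ∃ c : ℝ, 0 < c ∧ ∀ h : ℤ[X], h.natDegree = k → 0 < h.leadingCoeff →
      (∀ q : ℕ, 1 ≤ q → ∃ t : ℤ, (q : ℤ) ∣ h.eval t) →
      ∃ C : ℝ, ∀ N : ℕ, 1 ≤ N → ∀ A : Finset ℕ, A ⊆ Finset.Icc 1 N →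
        (∀ a ∈ A, ∀ b ∈ A, ∀ n : ℕ, 1 ≤ n → (a : ℤ) - (b : ℤ) = h.eval (n : ℤ) → a = b) →
        (A.card : ℝ) ≤ C * N * Real.exp (-c * Real.sqrt (Real.log N))) ∧
    (∀ k : ℕ, 2 ≤ k → ∃ c : ℝ, 0 < c ∧ ∃ C : ℝ, ∀ N : ℕ, 1 ≤ N →
      ∀ A : Finset ℕ, A ⊆ Finset.Icc 1 N →
        (∀ a ∈ A, ∀ b ∈ A, ∀ n : ℕ, 1 ≤ n → a ≠ b + n ^ k) →
        (A.card : ℝ) ≤ C * N * Real.exp (-c * Real.sqrt (Real.log N))) :=
  ⟨direct, powers⟩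

end Vale.Agent.Results.P042.QuasiPoly
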