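import Vale.Agent.P042.Assembly

/-!
# P042: quasi-polynomial bound for all intersective polynomials
-/

open Polynomial

namespace Vale.Agent.Results.P042.SqrtLog

/-- For every degree `k ≥ 2` there is `c > 0` such that every intersective `h` of degree `k` with
positive leading coefficient satisfies `r_h(N) ≤ C_h N exp(-c sqrt(log N))` for all `N ≥ 1`. -/
theorem result (k : ℕ) (hk : 2 ≤ k) :
    ∃ c : ℝ, 0 < c ∧ ∀ h : ℤ[X], h.natDegree = k → 0 < h.leadingCoeff →
      Vale.Agent.P042.Intersective h →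
      ∃ C : ℝ, ∀ N : ℕ, 1 ≤ N →
        (Vale.Agent.P042.rh h N : ℝ) ≤ C * N * Real.exp (-c * Real.sqrt (Real.log N)) := by
  obtain ⟨c, hc, hmain⟩ := Vale.Agent.P042.finale_full k 2 hk le_rfl
    (Vale.Agent.P042.weil_full k (by omega))
  refine ⟨c, hc, fun h hdeg hlc hint => ?_⟩
  obtain ⟨C, hC⟩ := hmain h hdeg hlc hint
  refine ⟨C, fun N hN => ?_⟩
  have h1 := hC N hN
  rw [Real.sqrt_eq_rpow]
  exact_mod_cast h1

end Vale.Agent.Results.P042.SqrtLog
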